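import Vale.Agent.P070.Bridge

/-!
In ZFC, a C*-algebra with property (N) and a regular maximal abelian subalgebra is isomorphic to
an algebra of compact operators.
-/

namespace Vale.Agent.Results.P070.RegularMasa

open Vale.Agent.P070

universe u

theorem result (A : Type u) [NonUnitalCStarAlgebra A] (hA : HasPropertyN A) (D : Set A)
    (hD : IsRegularMasaSet D) : IsCompactsAlgebra A :=
  isCompactsAlgebra_of_regularMasaSet hA D hD

end Vale.Agent.Results.P070.RegularMasa
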