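import Vale.Agent.P070.ChainBridge

/-!
In ZFC, a C*-algebra with property (N) that is a short well-ordered limit of subalgebras with
small irreducible representations is isomorphic to an algebra of compact operators.
-/

namespace Vale.Agent.Results.P070.ShortChain

open Vale.Agent.P070

universe u

theorem result (A : Type u) [NonUnitalCStarAlgebra A] (hA : HasPropertyN A)
    (hD : IsShortChainLimit A) : IsCompactsAlgebra A :=
  isCompactsAlgebra_of_shortChain hA hD

end Vale.Agent.Results.P070.ShortChain
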